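import Vale.Agent.P216.H215.ProP
import Vale.Agent.P216.H215.Resid
import Vale.Agent.P216.H126.CoverMain

open Bundle Manifold Vale.Agent.P216 Vale.Agent.P216.H126
open scoped ContDiff

namespace Vale.Agent.Results.P216.ClosedGeodesicsAll

theorem result {E : Type} [NormedAddCommGroup E] [NormedSpace ℝ E] [FiniteDimensional ℝ E]
    {M : Type} [MetricSpace M] [CompactSpace M] [ChartedSpace E M] [IsManifold 𝓘(ℝ, E) ∞ M]
    [RiemannianBundle (fun x : M => TangentSpace 𝓘(ℝ, E) x)]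
    [IsContMDiffRiemannianBundle 𝓘(ℝ, E) ∞ E (fun x : M => TangentSpace 𝓘(ℝ, E) x)]
    [IsRiemannianManifold 𝓘(ℝ, E) M]
    (h : HasOddCover M ∨
      ∃ x₀ : M,
        ¬ (finiteResidual (FundamentalGroup M x₀)).FiniteIndex ∧
        IsEmpty ((FundamentalGroup M x₀ ⧸ finiteResidual (FundamentalGroup M x₀)) ≃*
          Multiplicative ℤ) ∧
        IsEmpty ((FundamentalGroup M x₀ ⧸ finiteResidual (FundamentalGroup M x₀)) ≃*
          DihedralGroup 0) ∧
        (AlmostSimpleSolvable (FundamentalGroup M x₀) ∨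
          ∃ H : Subgroup (FundamentalGroup M x₀), H.FiniteIndex ∧ ∀ n : ℕ,
            ∃ (N : Subgroup H) (_ : N.Normal), N.FiniteIndex ∧ n ≤ N.index ∧
              Group.IsSolvable (H ⧸ N))) :
    (primeClosedGeodesicImages M).Infinite := by
  rcases h with h | ⟨x₀, hR, hZ, hD, hQ⟩
  · exact infinite_of_hasOddCover E h
  · intro hfin
    rcases RFS.residual_quotient (sfcc_fundamentalGroup E M x₀ hfin) hR
      (hQ.imp_left fun h U hU N hN hN0 S hS hs hnc hz => h U ⟨hU⟩ N hN ⟨hN0⟩ S hS hs hnc hz)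
      with ⟨⟨e⟩⟩ | ⟨⟨e⟩⟩
    · exact hZ.false e
    · exact hD.false e

end Vale.Agent.Results.P216.ClosedGeodesicsAll
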