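import Vale.Agent.P216.H215.D3Fin

open Bundle Manifold Vale.Agent.P216
open scoped ContDiff

namespace Vale.Agent.Results.P216.ClosedGeodesicsAllFinite

theorem result {E : Type} [NormedAddCommGroup E] [NormedSpace ℝ E] [FiniteDimensional ℝ E]
    {M : Type} [MetricSpace M] [CompactSpace M] [ChartedSpace E M] [IsManifold 𝓘(ℝ, E) ∞ M]
    [RiemannianBundle (fun x : M => TangentSpace 𝓘(ℝ, E) x)]
    [IsContMDiffRiemannianBundle 𝓘(ℝ, E) ∞ E (fun x : M => TangentSpace 𝓘(ℝ, E) x)]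
    [IsRiemannianManifold 𝓘(ℝ, E) M]
    (hn : 2 ≤ Module.finrank ℝ E)
    (h : (Module.finrank ℝ E ≠ 3 ∧ H215.MonogenicCovered M) ∨
      (∃ (n : ℕ) (q : Metric.sphere (0 : EuclideanSpace ℝ (Fin (n + 1))) 1 → M),
        2 ≤ n ∧ IsCoveringMap q) ∨
      ∃ x₀ : M, H215.LargeGroup (FundamentalGroup M x₀)) :
    (primeClosedGeodesicImages M).Infinite :=
  H215.main_union E hn h

end Vale.Agent.Results.P216.ClosedGeodesicsAllFinite
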