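import Vale.Agent.P216.H215.LinMain
import Vale.Agent.P216.D239.VIn
import Vale.Agent.P216.H971T.GomN
import Vale.Agent.P216.B7.Main

open Bundle Manifold Matrix Vale.Agent.P216
open scoped ContDiff

namespace Vale.Agent.Results.P216.ClosedGeodesicsAllFiniteLin

theorem result {E : Type} [NormedAddCommGroup E] [NormedSpace ℝ E] [FiniteDimensional ℝ E]
    {M : Type} [MetricSpace M] [CompactSpace M] [ChartedSpace E M] [IsManifold 𝓘(ℝ, E) ∞ M]
    [RiemannianBundle (fun x : M => TangentSpace 𝓘(ℝ, E) x)]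
    [IsContMDiffRiemannianBundle 𝓘(ℝ, E) ∞ E (fun x : M => TangentSpace 𝓘(ℝ, E) x)]
    [IsRiemannianManifold 𝓘(ℝ, E) M]
    (hn : 2 ≤ Module.finrank ℝ E) (x₀ : M)
    {n : ℕ} {K : Type} [Field K] (ρ : FundamentalGroup M x₀ →* GL (Fin n) K)
    (hρ : Function.Injective ρ) :
    (primeClosedGeodesicImages M).Infinite :=
  H215.infinite_of_linear E @D239.vGoal @H971T.infinite_three @B7.virtZGoal hn x₀ ρ hρ

end Vale.Agent.Results.P216.ClosedGeodesicsAllFiniteLin
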