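import Vale.Agent.P216.H215.PiMain2
import Vale.Agent.P216.D239.VIn
import Vale.Agent.P216.H971T.GomN

open Bundle Manifold Vale.Agent.P216
open scoped ContDiff

namespace Vale.Agent.Results.P216.ClosedGeodesicsAllFinitePi

theorem result {E : Type} [NormedAddCommGroup E] [NormedSpace ℝ E] [FiniteDimensional ℝ E]
    {M : Type} [MetricSpace M] [CompactSpace M] [ChartedSpace E M] [IsManifold 𝓘(ℝ, E) ∞ M]
    [RiemannianBundle (fun x : M => TangentSpace 𝓘(ℝ, E) x)]
    [IsContMDiffRiemannianBundle 𝓘(ℝ, E) ∞ E (fun x : M => TangentSpace 𝓘(ℝ, E) x)]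
    [IsRiemannianManifold 𝓘(ℝ, E) M]
    (hn : 2 ≤ Module.finrank ℝ E) (x₀ : M) (h : Finite (FundamentalGroup M x₀)) :
    (primeClosedGeodesicImages M).Infinite :=
  H215.infinite_of_finite E @D239.vGoal @H971T.infinite_three hn x₀ h

end Vale.Agent.Results.P216.ClosedGeodesicsAllFinitePi
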