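import Vale.Agent.P216.H609.Main

open Bundle Manifold Vale.Agent.P216
open scoped ContDiff

namespace Vale.Agent.Results.P216.ClosedGeodesicsMaps

theorem result {E : Type} [NormedAddCommGroup E] [NormedSpace ℝ E] [FiniteDimensional ℝ E]
    {M : Type} [MetricSpace M] [CompactSpace M] [ConnectedSpace M] [ChartedSpace E M]
    [IsManifold 𝓘(ℝ, E) ∞ M]
    [RiemannianBundle (fun x : M => TangentSpace 𝓘(ℝ, E) x)]
    [IsContMDiffRiemannianBundle 𝓘(ℝ, E) ∞ E (fun x : M => TangentSpace 𝓘(ℝ, E) x)]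
    [IsRiemannianManifold 𝓘(ℝ, E) M]
    (K d : ℕ) (hd : Odd d) (Φ : C(M, CPn (K + 1))) (f : C(CPn 1, M))
    (hf : (Φ.comp f).Homotopic (powMap K d))
    {V : Type} [NormedAddCommGroup V] [NormedSpace ℝ V]
    (T : Geometry.SimplicialComplex ℝ V) (hT : T.faces.Finite)
    (e : ContinuousMap.HomotopyEquiv M T.space) (hχ : eulerChar T hT ≠ 0) :
    (primeClosedGeodesicImages M).Infinite :=
  H609.theoremA_maps (E := E) K d hd Φ f hf T hT e hχ

end Vale.Agent.Results.P216.ClosedGeodesicsMaps
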