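import Vale.Agent.P216.H215.ProP
import Vale.Agent.P216.H215.Resid

open Bundle Manifold Vale.Agent.P216
open scoped ContDiff

namespace Vale.Agent.Results.P216.FiniteResidual

theorem result {E : Type*} [NormedAddCommGroup E] [NormedSpace ℝ E] [FiniteDimensional ℝ E]
    {M : Type*} [MetricSpace M] [CompactSpace M] [ChartedSpace E M] [IsManifold 𝓘(ℝ, E) ∞ M]
    [RiemannianBundle (fun x : M => TangentSpace 𝓘(ℝ, E) x)]
    [IsContMDiffRiemannianBundle 𝓘(ℝ, E) ∞ E (fun x : M => TangentSpace 𝓘(ℝ, E) x)]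
    [IsRiemannianManifold 𝓘(ℝ, E) M]
    (x₀ : M)
    (hR : ¬ (finiteResidual (FundamentalGroup M x₀)).FiniteIndex)
    (hZ : IsEmpty
      ((FundamentalGroup M x₀ ⧸ finiteResidual (FundamentalGroup M x₀)) ≃* Multiplicative ℤ))
    (hD : IsEmpty
      ((FundamentalGroup M x₀ ⧸ finiteResidual (FundamentalGroup M x₀)) ≃* DihedralGroup 0))
    (hQ : AlmostSimpleSolvable (FundamentalGroup M x₀) ∨
      ∃ H : Subgroup (FundamentalGroup M x₀), H.FiniteIndex ∧ ∀ n : ℕ,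
        ∃ (N : Subgroup H) (_ : N.Normal), N.FiniteIndex ∧ n ≤ N.index ∧
          Group.IsSolvable (H ⧸ N)) :
    (primeClosedGeodesicImages M).Infinite := by
  intro hfin
  rcases RFS.residual_quotient (sfcc_fundamentalGroup E M x₀ hfin) hR
    (hQ.imp_left fun h U hU N hN hN0 S hS hs hnc hz => h U ⟨hU⟩ N hN ⟨hN0⟩ S hS hs hnc hz)
    with ⟨⟨e⟩⟩ | ⟨⟨e⟩⟩
  · exact hZ.false e
  · exact hD.false e

end Vale.Agent.Results.P216.FiniteResidual
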