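import Vale.Agent.P216.H215.ProP

open Bundle Manifold Vale.Agent.P216
open scoped ContDiff

namespace Vale.Agent.Results.P216.ProPQuotients

theorem result {E : Type*} [NormedAddCommGroup E] [NormedSpace ℝ E] [FiniteDimensional ℝ E]
    {M : Type*} [MetricSpace M] [CompactSpace M] [ChartedSpace E M] [IsManifold 𝓘(ℝ, E) ∞ M]
    [RiemannianBundle (fun x : M => TangentSpace 𝓘(ℝ, E) x)]
    [IsContMDiffRiemannianBundle 𝓘(ℝ, E) ∞ E (fun x : M => TangentSpace 𝓘(ℝ, E) x)]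
    [IsRiemannianManifold 𝓘(ℝ, E) M]
    (x₀ : M) (H : Subgroup (FundamentalGroup M x₀)) [H.FiniteIndex] (p : ℕ) (hp : p.Prime)
    (hH : ∀ n : ℕ, ∃ N : Subgroup H, N.Normal ∧ ∃ e : ℕ, n ≤ e ∧ N.index = p ^ e)
    (hK : ∀ K : Subgroup H, K.FiniteIndex →
      ∃ (N : Subgroup K) (_ : N.Normal), N.FiniteIndex ∧ ¬ IsCyclic (K ⧸ N)) :
    (primeClosedGeodesicImages M).Infinite := by
  intro hfin
  obtain ⟨K, hKfin, hcyc⟩ :=
    ((sfcc_fundamentalGroup E M x₀ hfin).subgroup H).exists_cyclic_quotients hp hH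
  obtain ⟨N, hN, hNfin, hNc⟩ := hK K hKfin
  exact hNc (hcyc N hNfin)

end Vale.Agent.Results.P216.ProPQuotients
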