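import Vale.Agent.P216.H215.ProP
import Vale.Agent.P216.H215.RFinal

open Bundle Manifold Vale.Agent.P216
open scoped ContDiff

namespace Vale.Agent.Results.P216.ResiduallyFinite

/-- Every finite almost simple quotient `A = U ⧸ N` of a finite-index subgroup `U` of `G`, with
nonabelian simple normal subgroup `S` of trivial centralizer, has `A ⧸ S` solvable. -/
def AlmostSimpleSolvable (G : Type*) [Group G] : Prop :=
  ∀ U : Subgroup G, U.FiniteIndex → ∀ (N : Subgroup U) (_ : N.Normal), N.FiniteIndex →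
    ∀ (S : Subgroup (U ⧸ N)) (_ : S.Normal), IsSimpleGroup S → (∃ x y : S, x * y ≠ y * x) →
      Subgroup.centralizer (S : Set (U ⧸ N)) = ⊥ → Group.IsSolvable ((U ⧸ N) ⧸ S)

theorem result {E : Type*} [NormedAddCommGroup E] [NormedSpace ℝ E] [FiniteDimensional ℝ E]
    {M : Type*} [MetricSpace M] [CompactSpace M] [ChartedSpace E M] [IsManifold 𝓘(ℝ, E) ∞ M]
    [RiemannianBundle (fun x : M => TangentSpace 𝓘(ℝ, E) x)]
    [IsContMDiffRiemannianBundle 𝓘(ℝ, E) ∞ E (fun x : M => TangentSpace 𝓘(ℝ, E) x)]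
    [IsRiemannianManifold 𝓘(ℝ, E) M]
    (x₀ : M)
    (hRF : ∀ g : FundamentalGroup M x₀, g ≠ 1 →
      ∃ N : Subgroup (FundamentalGroup M x₀), N.FiniteIndex ∧ g ∉ N)
    (hZ : ∀ H : Subgroup (FundamentalGroup M x₀), H.FiniteIndex → ¬ IsCyclic H)
    (hQ : AlmostSimpleSolvable (FundamentalGroup M x₀) ∨
      ∃ H : Subgroup (FundamentalGroup M x₀), H.FiniteIndex ∧ ∀ n : ℕ,
        ∃ (N : Subgroup H) (_ : N.Normal), N.FiniteIndex ∧ n ≤ N.index ∧
          Group.IsSolvable (H ⧸ N)) :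
    (primeClosedGeodesicImages M).Infinite := by
  intro hfin
  obtain ⟨H, hH, hc⟩ := RFS.exists_cyclic_of_rf (sfcc_fundamentalGroup E M x₀ hfin) hRF
    (hQ.imp_left fun h U hU N hN hN0 S hS hs hnc hz => h U ⟨hU⟩ N hN ⟨hN0⟩ S hS hs hnc hz)
  exact hZ H hH hc

end Vale.Agent.Results.P216.ResiduallyFinite
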