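import Vale.Agent.P216.H215.ProP
import Vale.Agent.P216.T1.Solv

open Bundle Manifold Vale.Agent.P216
open scoped ContDiff

namespace Vale.Agent.Results.P216.SolvableQuotients

theorem result {E : Type*} [NormedAddCommGroup E] [NormedSpace ℝ E] [FiniteDimensional ℝ E]
    {M : Type*} [MetricSpace M] [CompactSpace M] [ChartedSpace E M] [IsManifold 𝓘(ℝ, E) ∞ M]
    [RiemannianBundle (fun x : M => TangentSpace 𝓘(ℝ, E) x)]
    [IsContMDiffRiemannianBundle 𝓘(ℝ, E) ∞ E (fun x : M => TangentSpace 𝓘(ℝ, E) x)]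
    [IsRiemannianManifold 𝓘(ℝ, E) M]
    (x₀ : M) (H : Subgroup (FundamentalGroup M x₀)) [H.FiniteIndex]
    (hH :
      ((∀ n : ℕ, ∃ (N : Subgroup H) (_ : N.Normal),
          N.FiniteIndex ∧ n ≤ N.index ∧ Group.IsSolvable (H ⧸ N)) ∧
        (∀ K : Subgroup H, K.FiniteIndex →
          ∃ (N : Subgroup K) (_ : N.Normal), N.FiniteIndex ∧ ¬ IsCyclic (K ⧸ N))) ∨
      (∀ r : ℕ, ∃ (G : Type) (_ : Group G) (_ : Finite G) (q : H →* G), Function.Surjective q ∧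
        ∀ a : Fin r → G, ∃ y : G, ∀ (i : Fin r) (k : ℤ), ¬ IsConj y (a i ^ k))) :
    (primeClosedGeodesicImages M).Infinite := by
  intro hfin
  have hS := (sfcc_fundamentalGroup E M x₀ hfin).subgroup H
  rcases hH with ⟨h1, h2⟩ | h
  · obtain ⟨K, hKfin, hcyc⟩ := hS.exists_cyclic_quotients_of_solvable fun n => by
      obtain ⟨N, hN, hNf, hNn, hNs⟩ := h1 n
      exact ⟨N, hN, hNf.index_ne_zero, hNn, hNs⟩
    obtain ⟨N, hN, hNfin, hNc⟩ := h2 K hKfin
    exact hNc (hcyc N hNfin)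
  · obtain ⟨r, hr⟩ := hS.fcc.exists_bound
    obtain ⟨G, _, _, q, hq, hG⟩ := h r
    obtain ⟨a, ha⟩ := hr q hq
    obtain ⟨y, hy⟩ := hG a
    obtain ⟨i, k, hik⟩ := ha y
    exact hy i k hik

end Vale.Agent.Results.P216.SolvableQuotients
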